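-- RD-BASE 2d07e31fad3a05cbb7f651e18ffa3d8345a384f3
import Vale.Agent.P028.MathlibUsed
import Vale.Agent.P028.RD.H530.Sep
import Vale.Agent.P028.RD.H530.GainW
import Vale.Agent.P028.H132.Dmax
attribute [-instance] ProperSMul.toContinuousSMul IsTopologicalTorsor.toContinuousSMul IdemSemiring.toCanonicallyOrderedAdd IdemSemiring.toMulLeftMono IdemSemiring.toMulRightMono AddQuantale.instAddLeftMono AddQuantale.instAddRightMono Quantale.instMulLeftMono Quantale.instMulRightMono FiniteDimensional.rclike_to_real IsScalarTower.complexToReal FiniteDimensional.complexToReal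

/-!
# The natural law of the outer labels of the partners

`Y` is a set of moduli of one cell with different outer deficits; the sum of the natural weights
of the outer deficits against a function of the outer flags is at most a mean over the words.
-/

namespace Vale.P028.SK

open Finset CF RN

variable {g : Cfg}

/-- the label of the word only depends on the centre at the prime -/
theorem wb_congr {Q Q' : ℕ} {k : Fin (N g)}
    (h : Q.factorization (N g - (k : ℕ)) = Q'.factorization (N g - (k : ℕ))) :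
    wb g Q k = wb g Q' k := by
  funext m
  unfold wb wj
  rw [h]

open Classical in
/-- the weights of the labels: natural at the places `< s` where somebody deviates, deterministic
elsewhere -/
noncomputable def wY (g : Cfg) (Q s : ℕ) (Y : Finset ℕ) (k : Fin (N g)) (m : Fin (Eb g + 1)) : ℝ :=
  if (k : ℕ) < s ∧ ∃ y ∈ Y, uw g y k = true then wb g Q k m else if m = 0 then 1 else 0

theorem wY_nonneg (Q s : ℕ) (Y : Finset ℕ) (k : Fin (N g)) (m : Fin (Eb g + 1)) :
    0 ≤ wY g Q s Y k m := by
  classical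
  unfold wY
  split_ifs
  · exact wb_nonneg _ _ _
  · exact zero_le_one
  · exact le_rfl

theorem wY_sum {q0 : ℕ} (hq0 : q0 ∈ g.V) (s : ℕ) (Y : Finset ℕ) (k : Fin (N g)) :
    ∑ m, wY g (Qc g q0) s Y k m = 1 := by
  classical
  unfold wY
  by_cases h : (k : ℕ) < s ∧ ∃ y ∈ Y, uw g y k = true
  · simp only [h]
    exact wb_sum hq0 k
  · simp [h]

/-- **The natural law of the partners.**  `Y` is a set of moduli of one cell at the stage `j`, with
different outer deficits; `Φ` is a nonnegative function of the words. -/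
theorem law_gen (hV : g.V ⊆ Icc 1 (N g)) {j q0 : ℕ} (hz : zs g ≤ z g j) (hq0 : q0 ∈ g.V)
    {Y : Finset ℕ} (hY : ∀ y ∈ Y, y ∈ g.V ∧ y ∈ NT.cell g.V (f g) (thr g) (N g) (z g j) q0)
    (hinj : Set.InjOn (M g j) (Y : Set ℕ)) {Φ : (Fin (N g) → Fin (Eb g + 1)) → ℝ}
    (hΦ : ∀ w, 0 ≤ Φ w) :
    ∑ y ∈ Y, Wt g j y * Φ (mix (N g - z g j) (wo g y) 0) ≤
      Ex (wY g (Qc g q0) (N g - z g j) Y) Φ := by
  classical
  set s := N g - z g j with hs
  set π := wY g (Qc g q0) s Y with hπ
  -- the centre at the outer primes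
  have hQ : ∀ y ∈ Y, ∀ k : Fin (N g), (k : ℕ) < s →
      (Qc g y).factorization (N g - (k : ℕ)) = (Qc g q0).factorization (N g - (k : ℕ)) := by
    intro y hy k hk
    rw [Qc_fac, Qc_fac]
    split_ifs with h
    · exact kc_congr (hY y hy).2 (by omega)
    · rfl
  -- the weight of the word
  have hW : ∀ y ∈ Y, Wt g j y ≤ Pr π (mix s (wo g y) 0) := by
    intro y hy
    rw [← Pm_wo (hY y hy).1 hz]
    unfold RN.Pm Pr
    refine prod_le_prod (fun k _ => ?_) fun k _ => ?_
    · split_ifs
      · exact wb_nonneg _ _ _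
      · exact zero_le_one
    · by_cases hk : (k : ℕ) < s
      · rw [if_pos hk, wb_congr (hQ y hy k hk)]
        have e1 : mix s (wo g y) 0 k = wo g y k := by
          unfold mix
          rw [if_pos hk]
        rw [e1, hπ]
        unfold wY
        by_cases h : ∃ y ∈ Y, uw g y k = true
        · rw [if_pos ⟨hk, h⟩]
        · rw [if_neg fun h' => h h'.2]
          have h0 : wo g y k = 0 := by
            by_contra hne
            apply h
            refine ⟨y, hy, ?_⟩
            unfold uw
            rw [decide_eq_true_iff]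
            exact ⟨k.2, hne⟩
          rw [if_pos h0, ← wb_sum hq0 k]
          exact single_le_sum (f := fun m => wb g (Qc g q0) k m)
            (fun m _ => wb_nonneg _ _ _) (mem_univ _)
      · rw [if_neg hk]
        have e1 : mix s (wo g y) 0 k = 0 := by
          unfold mix
          rw [if_neg hk]
          rfl
        rw [e1, hπ]
        unfold wY
        rw [if_neg fun h' => hk h'.1, if_pos rfl]
  -- injectivity
  have hi : Set.InjOn (fun y => mix s (wo g y) (0 : Fin (N g) → Fin (Eb g + 1))) (Y : Set ℕ) := by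
    intro y hy y' hy' h
    have hyY := mem_coe.1 hy
    have hyY' := mem_coe.1 hy'
    refine hinj hy hy' ?_
    refine Nat.eq_of_factorization_eq (M_pos g j y).ne' (M_pos g j y').ne' fun p => ?_
    unfold M
    rw [od_fac, od_fac]
    by_cases hp : p ∈ PO (z g j) (N g)
    · rw [if_pos hp, if_pos hp]
      have hp1 := mem_PO.1 hp
      have hp0 := hp1.1.pos
      have hkN : N g - p < N g := by omega
      have h2 := congrFun h ⟨N g - p, hkN⟩
      have hks : N g - p < s := by omega
      have e1 : ∀ v, mix s (wo g v) (0 : Fin (N g) → Fin (Eb g + 1)) ⟨N g - p, hkN⟩ =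
          wo g v ⟨N g - p, hkN⟩ := by
        intro v
        unfold mix
        rw [if_pos hks]
      simp only [e1] at h2
      have h3 := congrArg Fin.val h2
      rw [wo_val (hY y hyY).1, wo_val (hY y' hyY').1] at h3
      simp only at h3
      have h4 : N g - (N g - p) = p := by omega
      have h5 := PO_mono hz hp
      rw [h4, Md_fac, Md_fac, if_pos h5, if_pos h5] at h3
      exact h3
    · rw [if_neg hp, if_neg hp]
  calc ∑ y ∈ Y, Wt g j y * Φ (mix s (wo g y) 0)
      ≤ ∑ y ∈ Y, Pr π (mix s (wo g y) 0) * Φ (mix s (wo g y) 0) :=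
        sum_le_sum fun y hy => mul_le_mul_of_nonneg_right (hW y hy) (hΦ _)
    _ = ∑ w ∈ Y.image (fun y => mix s (wo g y) (0 : Fin (N g) → Fin (Eb g + 1))),
          Pr π w * Φ w := by
        rw [sum_image hi]
    _ ≤ ∑ w, Pr π w * Φ w := by
        refine sum_le_sum_of_subset_of_nonneg (subset_univ _) fun w _ _ => ?_
        exact mul_nonneg (Pr_nonneg (fun k m => wY_nonneg _ _ _ k m) w) (hΦ w)
    _ = Ex π Φ := rfl

/-- **The natural law of the walk of the partners.** -/
theorem law_W (hV : g.V ⊆ Icc 1 (N g)) {j q0 : ℕ} (hz : zs g ≤ z g j) (hq0 : q0 ∈ g.V)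
    {Y : Finset ℕ} (hY : ∀ y ∈ Y, y ∈ g.V ∧ y ∈ NT.cell g.V (f g) (thr g) (N g) (z g j) q0)
    (hinj : Set.InjOn (M g j) (Y : Set ℕ)) {mu : ℕ → ℝ} (hmu : ∀ k, 0 ≤ mu k)
    (hmu1 : ∀ k, mu k ≤ 1 / 4) {ε : ℝ} (hε0 : 0 ≤ ε) (hε : ε * Real.exp 24 ≤ 1)
    (hdev : ∀ k, k < N g - z g j → (∃ y ∈ Y, uw g y k = true) → hw g (Qc g q0) k ≤ ε * mu k) :
    ∑ y ∈ Y, Wt g j y * Real.exp (4 * RK.W (fun k => uw g y k = true) mu (N g - z g j)) ≤ 4 := by
  classical
  set s := N g - z g j with hs
  have h1 := law_gen hV hz hq0 hY hinj (Φ := fun w => Real.exp (4 * RK.W (RK.dvw 0 w) mu s))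
    fun w => (Real.exp_pos _).le
  have h2 : Ex (wY g (Qc g q0) s Y) (fun w => Real.exp (4 * RK.W (RK.dvw 0 w) mu s)) ≤ 4 := by
    refine RK.Ex_exp_W (fun k m => wY_nonneg _ _ _ k m) (fun k => wY_sum hq0 _ _ k) hmu hmu1 hε
      (fun k => ?_) (Nat.sub_le _ _)
    have hk0 : (0 : Fin (N g) → Fin (Eb g + 1)) k = 0 := rfl
    rw [hk0]
    unfold wY
    by_cases h : (k : ℕ) < s ∧ ∃ y ∈ Y, uw g y k = true
    · rw [if_pos h, wb_zero]
      have := hdev k h.1 h.2
      linarith
    · rw [if_neg h, if_pos rfl]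
      have := mul_nonneg hε0 (hmu k)
      linarith
  refine le_trans (le_of_eq ?_) (h1.trans h2)
  refine sum_congr rfl fun y hy => ?_
  congr 3
  refine RK.W_congr fun k hk => ?_
  have hkN : k < N g := by omega
  have e1 : mix s (wo g y) (0 : Fin (N g) → Fin (Eb g + 1)) ⟨k, hkN⟩ = wo g y ⟨k, hkN⟩ := by
    unfold mix
    rw [if_pos hk]
  unfold uw RK.dvw
  rw [decide_eq_true_iff]
  constructor
  · rintro ⟨h, h3⟩
    refine ⟨h, ?_⟩
    rw [e1]
    exact h3
  · rintro ⟨h, h3⟩
    refine ⟨h, ?_⟩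
    rw [e1] at h3
    exact h3

end Vale.P028.SK
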