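-- RD-BASE 67357e7f50d3ff915e10a07d953a228f0e39a61e
import Vale.Agent.P028.MathlibUsed
import Vale.Agent.P028.RD.R2.POldB
import Vale.Agent.P028.RD.FQ.BMTop
attribute [-instance] ProperSMul.toContinuousSMul IsTopologicalTorsor.toContinuousSMul IdemSemiring.toCanonicallyOrderedAdd IdemSemiring.toMulLeftMono IdemSemiring.toMulRightMono AddQuantale.instAddLeftMono AddQuantale.instAddRightMono Quantale.instMulLeftMono Quantale.instMulRightMono FiniteDimensional.rclike_to_real IsScalarTower.complexToReal FiniteDimensional.complexToReal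

/-!
# Class O (small complexity): the sum over the patterns
-/

namespace Vale.P028.SK

open Finset CF RN

variable {g : Cfg}

/-! ### Sums over numbers with few primes -/

/-- `n ↦ n ^ (- 9 / 20)` -/
noncomputable def pw9 : ℕ →* ℝ where
  toFun n := (n : ℝ) ^ (-(9 / 20) : ℝ)
  map_one' := by simp
  map_mul' m n := by
    push_cast
    exact Real.mul_rpow (Nat.cast_nonneg _) (Nat.cast_nonneg _)

theorem pw9_apply (n : ℕ) : pw9 n = (n : ℝ) ^ (-(9 / 20) : ℝ) := rfl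

theorem pw9_nonneg (n : ℕ) : 0 ≤ pw9 n := by
  rw [pw9_apply]
  positivity

theorem pw9_lt_one {p : ℕ} (hp : p.Prime) : pw9 p < 1 := by
  rw [pw9_apply]
  exact Real.rpow_lt_one_of_one_lt_of_neg (by exact_mod_cast hp.one_lt) (by norm_num)

theorem one_le_pw9_fac {p : ℕ} (hp : p.Prime) : 1 ≤ (1 - pw9 p)⁻¹ := by
  have h1 := pw9_lt_one hp
  have h2 := pw9_nonneg p
  exact (one_le_inv₀ (by linarith)).2 (by linarith)

/-- the Euler product -/
noncomputable def E9 (P : Finset ℕ) : ℝ := ∏ p ∈ P, (1 - pw9 p)⁻¹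

theorem one_le_E9 {P : Finset ℕ} (hP : ∀ p ∈ P, p.Prime) : 1 ≤ E9 P := by
  unfold E9
  calc (1 : ℝ) = ∏ _p ∈ P, (1 : ℝ) := by rw [prod_const_one]
    _ ≤ _ := prod_le_prod (fun _ _ => zero_le_one) fun p hp => one_le_pw9_fac (hP p hp)

theorem smooth9 {P : Finset ℕ} (hP : ∀ p ∈ P, p.Prime) (Z : Finset ℕ)
    (hZ : ∀ w ∈ Z, w ≠ 0 ∧ w.primeFactors ⊆ P) : ∑ w ∈ Z, pw9 w ≤ E9 P := by
  classical
  have hlt1 : ∀ {p : ℕ}, p.Prime → ‖pw9 p‖ < 1 := by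
    intro p hp
    rw [Real.norm_of_nonneg (pw9_nonneg p)]
    exact pw9_lt_one hp
  obtain ⟨hsum, hhas⟩ :=
    EulerProduct.summable_and_hasSum_factoredNumbers_prod_filter_prime_geometric
      (f := pw9) hlt1 P
  have hmem : ∀ u ∈ Z, u ∈ Nat.factoredNumbers P := by
    intro u hu
    exact Nat.mem_factoredNumbers_iff_primeFactors_subset.2 (hZ u hu)
  have h5 : ∑ u ∈ Z, pw9 u =
      ∑ m ∈ Z.attach.image (fun u => (⟨u.1, hmem u.1 u.2⟩ : Nat.factoredNumbers P)),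
        pw9 m.1 := by
    rw [sum_image]
    · rw [← sum_attach]
    · intro a _ b _ hab
      have : a.1 = b.1 := by simpa using congrArg Subtype.val hab
      exact Subtype.ext this
  have h6 : P.filter (fun p => p.Prime) = P := filter_true_of_mem hP
  rw [h6] at hhas
  unfold E9
  rw [h5, ← hhas.tsum_eq]
  exact hhas.summable.sum_le_tsum _ (fun m _ => pw9_nonneg _)

theorem E9_union {P Q : Finset ℕ} (hP : ∀ p ∈ P, p.Prime) (hQ : ∀ p ∈ Q, p.Prime) :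
    E9 (P ∪ Q) ≤ E9 P * E9 Q := by
  classical
  have h1 : E9 (P ∪ Q) * E9 (P ∩ Q) = E9 P * E9 Q := by
    unfold E9
    exact prod_union_inter
  have h2 : 1 ≤ E9 (P ∩ Q) := one_le_E9 fun p hp => hP p (mem_inter.1 hp).1
  have h3 : 1 ≤ E9 (P ∪ Q) := one_le_E9 fun p hp => by
    rcases mem_union.1 hp with h | h
    · exact hP p h
    · exact hQ p h
  rw [← h1]
  exact le_mul_of_one_le_right (by linarith) h2

/-- the constant of the small primes -/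
noncomputable def Zc (n : ℕ) : ℝ := E9 ((range (n + 1)).filter Nat.Prime)

theorem one_le_Zc (n : ℕ) : 1 ≤ Zc n := one_le_E9 fun _ hp => (mem_filter.1 hp).2

theorem E9_dvS {q : ℕ} (hq : WW w3 g q ≤ 1 / 4) : E9 (dvS g q) ≤ Real.exp (1 / 2) := by
  have hpr : ∀ p ∈ dvS g q, p.Prime := fun p hp => (mem_dvS.1 hp).1.1
  have h64 : ∀ p ∈ dvS g q, 64 ≤ p := fun p hp => by
    obtain ⟨h1, h2⟩ := mem_filter.1 (show p ∈ (NT.PzN (zs g) (N g)).filter
      (fun p => q.factorization p ≠ NT.kk g.V (f g) (thr g) (N g) q p) from hp)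
    exact dev_ge hq h1 h2
  have hle : ∀ p ∈ dvS g q, pw9 p ≤ w3 p := by
    intro p hp
    rw [pw9_apply]
    unfold w3
    have h1 : (1 : ℝ) ≤ p := by exact_mod_cast (hpr p hp).one_le
    exact Real.rpow_le_rpow_of_exponent_le h1 (by norm_num)
  have hsum : ∑ p ∈ dvS g q, w3 p ≤ 1 / 4 := hq
  have hone : ∀ p ∈ dvS g q, pw9 p ≤ 1 / 4 := by
    intro p hp
    refine (hle p hp).trans (le_trans ?_ hsum)
    exact single_le_sum (f := w3) (fun i _ => w3_nonneg i) hp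
  unfold E9
  calc ∏ p ∈ dvS g q, (1 - pw9 p)⁻¹ ≤ ∏ p ∈ dvS g q, Real.exp (2 * pw9 p) := by
        refine prod_le_prod (fun p hp => ?_) fun p hp => ?_
        · exact inv_nonneg.2 (by linarith [hone p hp])
        · have h1 := hone p hp
          have h0 := pw9_nonneg p
          have h2 : 1 + 2 * pw9 p ≤ Real.exp (2 * pw9 p) := by
            linarith [Real.add_one_le_exp (2 * pw9 p)]
          refine le_trans ?_ h2
          rw [inv_le_iff_one_le_mul₀ (by linarith)]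
          nlinarith
    _ = Real.exp (2 * ∑ p ∈ dvS g q, pw9 p) := by rw [← Real.exp_sum, mul_sum]
    _ ≤ Real.exp (1 / 2) := by
        apply Real.exp_le_exp.2
        have := (sum_le_sum hle).trans hsum
        linarith

/-- the primes of the patterns of `q` -/
noncomputable def Qp (g : Cfg) (q : ℕ) : Finset ℕ :=
  (range (zs g + 1)).filter Nat.Prime ∪ dvS g q

theorem E9_Qp {q : ℕ} (hq : WW w3 g q ≤ 1 / 4) : E9 (Qp g q) ≤ Zc (zs g) * Real.exp (1 / 2) := by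
  refine (E9_union (fun p hp => (mem_filter.1 hp).2) fun p hp => (mem_dvS.1 hp).1.1).trans ?_
  exact mul_le_mul_of_nonneg_left (E9_dvS hq) (zero_le_one.trans (one_le_Zc _))

/-- the sum over the patterns of `q` -/
theorem part_old {q : ℕ} (hq : WW w3 g q ≤ 1 / 4) (A : Finset (ℕ × ℕ))
    (hA : ∀ x ∈ A, 0 < x.1 ∧ 0 < x.2 ∧ (∀ p : ℕ, p.Prime → zs g < p → p ∣ x.1 ∨ p ∣ x.2 →
      p ∈ dvS g q)) :
    ∑ x ∈ A, (((x.1 : ℕ) : ℝ) * ((x.2 : ℕ) : ℝ)) ^ (-(9 / 20) : ℝ) ≤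
      (Zc (zs g) * Real.exp (1 / 2)) ^ 2 := by
  classical
  have hQ : ∀ p ∈ Qp g q, p.Prime := fun p hp => by
    rcases mem_union.1 hp with h | h
    · exact (mem_filter.1 h).2
    · exact (mem_dvS.1 h).1.1
  have hE0 : 0 ≤ E9 (Qp g q) := zero_le_one.trans (one_le_E9 hQ)
  have h1 : ∑ w ∈ A.image Prod.fst, pw9 w ≤ E9 (Qp g q) := by
    refine smooth9 hQ _ fun w hw => ?_
    obtain ⟨x, hx, rfl⟩ := mem_image.1 hw
    obtain ⟨h1, h2, h3⟩ := hA x hx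
    refine ⟨h1.ne', fun p hp => ?_⟩
    obtain ⟨h4, h5, -⟩ := Nat.mem_primeFactors.1 hp
    rcases le_or_gt p (zs g) with h | h
    · exact mem_union_left _ (mem_filter.2 ⟨mem_range.2 (by omega), h4⟩)
    · exact mem_union_right _ (h3 p h4 h (Or.inl h5))
  have h2 : ∑ w ∈ A.image Prod.snd, pw9 w ≤ E9 (Qp g q) := by
    refine smooth9 hQ _ fun w hw => ?_
    obtain ⟨x, hx, rfl⟩ := mem_image.1 hw
    obtain ⟨h1, h2, h3⟩ := hA x hx
    refine ⟨h2.ne', fun p hp => ?_⟩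
    obtain ⟨h4, h5, -⟩ := Nat.mem_primeFactors.1 hp
    rcases le_or_gt p (zs g) with h | h
    · exact mem_union_left _ (mem_filter.2 ⟨mem_range.2 (by omega), h4⟩)
    · exact mem_union_right _ (h3 p h4 h (Or.inr h5))
  calc ∑ x ∈ A, (((x.1 : ℕ) : ℝ) * ((x.2 : ℕ) : ℝ)) ^ (-(9 / 20) : ℝ)
      = ∑ x ∈ A, pw9 x.1 * pw9 x.2 := by
        refine sum_congr rfl fun x _ => ?_
        rw [Real.mul_rpow (Nat.cast_nonneg _) (Nat.cast_nonneg _), pw9_apply, pw9_apply]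
    _ ≤ ∑ x ∈ A.image Prod.fst ×ˢ A.image Prod.snd, pw9 x.1 * pw9 x.2 := by
        refine sum_le_sum_of_subset_of_nonneg ?_ fun x _ _ =>
          mul_nonneg (pw9_nonneg _) (pw9_nonneg _)
        intro x hx
        exact mem_product.2 ⟨mem_image_of_mem _ hx, mem_image_of_mem _ hx⟩
    _ = (∑ w ∈ A.image Prod.fst, pw9 w) * ∑ w ∈ A.image Prod.snd, pw9 w := by
        rw [sum_product, sum_mul_sum]
    _ ≤ E9 (Qp g q) * E9 (Qp g q) := mul_le_mul h1 h2 (sum_nonneg fun _ _ => pw9_nonneg _) hE0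
    _ ≤ (Zc (zs g) * Real.exp (1 / 2)) ^ 2 := by
        rw [← sq]
        exact pow_le_pow_left₀ hE0 (E9_Qp hq) 2

/-! ### Sums over patterns -/

open Classical in
/-- the pairs sorted by their patterns -/
theorem pat_sum {S : Finset ℕ} {L : ℕ → ℕ → Prop} (pa : ℕ → ℕ → ℕ × ℕ) (G : ℕ → ℕ → ℝ)
    (w : ℕ × ℕ → ℝ) {Lx : ℕ × ℕ → ℕ → ℕ → Prop} (hLx : ∀ x q r, Lx x q r ↔ L q r ∧ pa q r = x)
    {A : Finset (ℕ × ℕ)} (hA : ∀ q ∈ S, ∀ r ∈ S, pa q r ∈ A) :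
    ∑ q ∈ S, ∑ r ∈ S, (if L q r then G q r * w (pa q r) else 0) =
      ∑ x ∈ A, w x * ∑ q ∈ S, ∑ r ∈ S.filter (fun r => Lx x q r), G q r := by
  have e1 : ∀ x ∈ A, w x * ∑ q ∈ S, ∑ r ∈ S.filter (fun r => Lx x q r), G q r =
      ∑ q ∈ S, ∑ r ∈ S, (if pa q r = x then
        (if L q r then G q r * w (pa q r) else 0) else 0) := by
    intro x _
    rw [mul_sum]
    refine sum_congr rfl fun q _ => ?_
    rw [sum_filter, mul_sum]
    refine sum_congr rfl fun r _ => ?_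
    by_cases h1 : L q r
    · by_cases h2 : pa q r = x
      · rw [if_pos ((hLx x q r).2 ⟨h1, h2⟩), if_pos h2, if_pos h1, h2]
        ring
      · rw [if_neg (fun h => h2 ((hLx x q r).1 h).2), if_neg h2, mul_zero]
    · rw [if_neg (fun h => h1 ((hLx x q r).1 h).1), if_neg h1, mul_zero, ite_self]
  rw [sum_congr rfl e1]
  symm
  rw [sum_comm]
  refine sum_congr rfl fun q hq => ?_
  rw [sum_comm]
  refine sum_congr rfl fun r hr => ?_
  rw [sum_ite_eq, if_pos (hA q hq r hr)]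

open Classical in
/-- interchange of the sums over the patterns and over the moduli -/
theorem pat_swap {S : Finset ℕ} {A : Finset (ℕ × ℕ)} {w : ℕ × ℕ → ℝ} {h : ℕ → ℝ}
    (hh : ∀ q, 0 ≤ h q) {P : ℝ} (Q : ℕ × ℕ → ℕ → Prop)
    (hQ : ∀ q ∈ S, ∑ x ∈ A.filter (fun x => Q x q), w x ≤ P) :
    ∑ x ∈ A, w x * ∑ q ∈ S.filter (fun q => Q x q), h q ≤ P * ∑ q ∈ S, h q := by
  have e1 : ∑ x ∈ A, w x * ∑ q ∈ S.filter (fun q => Q x q), h q =
      ∑ q ∈ S, h q * ∑ x ∈ A.filter (fun x => Q x q), w x := by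
    have e2 : ∀ x ∈ A, w x * ∑ q ∈ S.filter (fun q => Q x q), h q =
        ∑ q ∈ S, (if Q x q then h q * w x else 0) := by
      intro x _
      rw [sum_filter, mul_sum]
      refine sum_congr rfl fun q _ => ?_
      split_ifs <;> ring
    have e3 : ∀ q ∈ S, h q * ∑ x ∈ A.filter (fun x => Q x q), w x =
        ∑ x ∈ A, (if Q x q then h q * w x else 0) := by
      intro q _
      rw [sum_filter, mul_sum]
      refine sum_congr rfl fun x _ => ?_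
      split_ifs <;> ring
    rw [sum_congr rfl e2, sum_congr rfl e3, sum_comm]
  rw [e1, mul_sum]
  refine sum_le_sum fun q hq => ?_
  calc h q * ∑ x ∈ A.filter (fun x => Q x q), w x ≤ h q * P :=
        mul_le_mul_of_nonneg_left (hQ q hq) (hh q)
    _ = P * h q := mul_comm _ _

open Classical in
/-- the sum over the pairs from the bound of each pattern -/
theorem pat_total {S : Finset ℕ} {L : ℕ → ℕ → Prop} (pa : ℕ → ℕ → ℕ × ℕ) (G : ℕ → ℕ → ℝ)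
    {w : ℕ × ℕ → ℝ} (hw : ∀ x, 0 ≤ w x) {h : ℕ → ℝ} (hh : ∀ q, 0 ≤ h q) {P : ℝ}
    {Lx : ℕ × ℕ → ℕ → ℕ → Prop} (hLx : ∀ x q r, Lx x q r ↔ L q r ∧ pa q r = x)
    {Q1 Q2 : ℕ × ℕ → ℕ → Prop} {A : Finset (ℕ × ℕ)} (hA : ∀ q ∈ S, ∀ r ∈ S, pa q r ∈ A)
    (hform : ∀ x : ℕ × ℕ, ∑ q ∈ S, ∑ r ∈ S.filter (fun r => Lx x q r), G q r ≤
      ∑ q ∈ S.filter (fun q => Q1 x q), h q + ∑ r ∈ S.filter (fun r => Q2 x r), h r)
    (h1 : ∀ q ∈ S, ∑ x ∈ A.filter (fun x => Q1 x q), w x ≤ P)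
    (h2 : ∀ r ∈ S, ∑ x ∈ A.filter (fun x => Q2 x r), w x ≤ P) :
    ∑ q ∈ S, ∑ r ∈ S, (if L q r then G q r * w (pa q r) else 0) ≤ 2 * P * ∑ q ∈ S, h q := by
  rw [pat_sum pa G w hLx hA]
  have g1 := pat_swap hh Q1 h1
  have g2 := pat_swap hh Q2 h2
  have e0 : ∑ x ∈ A, w x * ∑ q ∈ S, ∑ r ∈ S.filter (fun r => Lx x q r), G q r ≤
      ∑ x ∈ A, w x * (∑ q ∈ S.filter (fun q => Q1 x q), h q +
        ∑ r ∈ S.filter (fun r => Q2 x r), h r) :=
    sum_le_sum fun x _ => mul_le_mul_of_nonneg_left (hform x) (hw x)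
  refine e0.trans ?_
  have e : ∑ x ∈ A, w x * (∑ q ∈ S.filter (fun q => Q1 x q), h q +
      ∑ r ∈ S.filter (fun r => Q2 x r), h r) =
      ∑ x ∈ A, w x * (∑ q ∈ S.filter (fun q => Q1 x q), h q) +
      ∑ x ∈ A, w x * ∑ r ∈ S.filter (fun r => Q2 x r), h r := by
    rw [← sum_add_distrib]
    exact sum_congr rfl fun x _ => mul_add _ _ _
  rw [e]
  linarith

/-! ### The sum over all the pairs -/

theorem TAo.swap (hV : g.V ⊆ Icc 1 (N g)) {i q r : ℕ} {n : ℤ} (hz : zs g ≤ z g i) (hq : q ∈ g.V)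
    (hr : r ∈ g.V) (h : TAo g i q r n) : TAo g i r q (-n) := by
  obtain ⟨h1, h2, h3, F, G, h4, h5, h6⟩ := h
  refine ⟨h1.swap hr, by rw [Dl_swap]; exact h2, fun h' => h3 ((Tr_swap hV hz hq hr h1.2.2.1).1 h'),
    G, F, h5, h4, ?_⟩
  have : KS g i r q G F = KS g i q r F G := max_comm _ _
  rw [this]
  exact h6

/-- the pairs of class O at the stage of `r` -/
def T1o (g : Cfg) (q r : ℕ) (n : ℤ) : Prop :=
  ∃ i ∈ Icc 1 (nst g), TAo g i q r n ∧ cc g q ≤ cc g r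

theorem T1o.st {q r : ℕ} {n : ℤ} (h : T1o g q r n) :
    1 ≤ cc g r ∧ cc g r ≤ nst g ∧ TAo g (cc g r) q r n := by
  obtain ⟨i, hi, h1, h2⟩ := h
  obtain ⟨g1, g2⟩ := mem_Icc.1 hi
  have h3 := stage_old g1 g2 h1
  rw [max_eq_right h2] at h3
  rw [← h3]
  exact ⟨g1, g2, h1⟩

open Classical in
/-- **Class O, the older modulus first.** -/
theorem EnS_T1o (hρ : Real.exp 1 ≤ g.K.P.ρ0 ^ (-g.K.P.c0)) (hJ : JsOK g.K g.Js)
    (hX : g.Js ≤ g.X) (hV : g.V ⊆ Icc 1 (N g)) (hK0 : K0c g ≤ zs g) {δ : ℕ → ℕ → ℝ}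
    (hδ : Om δ) (hδ' : DFin g δ) {S : Finset ℕ} (hS : S ⊆ V1 g) :
    EnS g S δ (T1o g) ≤ Real.exp 353 * 131072 * (Zc (zs g) * Real.exp (1 / 2)) ^ 2 *
      ∑ q ∈ S, f g q := by
  have hz : ∀ i, zs g ≤ z g i := fun i => zs_le_z hJ hX i
  have hSV : ∀ q ∈ S, q ∈ g.V ∧ WW w3 g q ≤ 1 / 4 := by
    intro q hq
    obtain ⟨h1, h2⟩ := mem_filter.1 (hS hq)
    exact ⟨(mem_filter.1 h1).1, h2⟩
  obtain ⟨L, hL⟩ : ∃ L : ℕ → ℕ → Prop, ∀ q r, L q r ↔
      ∃ n ∈ Sh g q r, T1o g q r n ∧ Kd g δ q r n ≠ 0 := ⟨_, fun _ _ => Iff.rfl⟩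
  obtain ⟨pa, hpa⟩ : ∃ pa : ℕ → ℕ → ℕ × ℕ, ∀ q r, pa q r =
    (rcof (z g (cc g r)) (N g) (kc g q) q r, rcof (z g (cc g r)) (N g) (kc g q) r q) :=
    ⟨_, fun _ _ => rfl⟩
  obtain ⟨w, hw⟩ : ∃ w : ℕ × ℕ → ℝ, ∀ x, w x =
    (((x.1 : ℕ) : ℝ) * ((x.2 : ℕ) : ℝ)) ^ (-(9 / 20) : ℝ) := ⟨_, fun _ => rfl⟩
  obtain ⟨Lx, hLx⟩ : ∃ Lx : ℕ × ℕ → ℕ → ℕ → Prop, ∀ x q r, Lx x q r ↔ L q r ∧ pa q r = x :=
    ⟨_, fun _ _ _ => Iff.rfl⟩
  have hw0 : ∀ x, 0 ≤ w x := fun x => by rw [hw]; positivity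
  -- the data of a pair
  have hLd : ∀ q ∈ S, ∀ r ∈ S, L q r → Clean g (z g (cc g r)) q r ∧ 0 < (pa q r).1 ∧
      0 < (pa q r).2 ∧ ∀ p : ℕ, p.Prime → zs g < p → p ∣ (pa q r).1 ∨ p ∣ (pa q r).2 →
        p ∈ dvS g q ∧ p ∈ dvS g r := by
    intro q hq r hr h
    obtain ⟨n, hn, hT, hK⟩ := (hL q r).1 h
    obtain ⟨g1, g2, hT'⟩ := hT.st
    have hc : Clean g (z g (cc g r)) q r := hT'.1.2.2.1
    obtain ⟨-, -, -, ha, hb⟩ := clean_cofac hV (hz _) (hSV q hq).1 (hSV r hr).1 hc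
    have hA := alive_old hJ hX hV hK0 hδ' g1 g2 (hSV q hq).1 (hSV r hr).1 hT' hn hK
    rw [hpa]
    exact ⟨hc, ha, hb, fun p hp hzp h => dev_old hV (hz _) (hSV q hq).1 (hSV r hr).1 hc hA hp hzp h⟩
  -- one pair
  have hpair : ∀ q ∈ S, ∀ r ∈ S, f g q * f g r / Dl g q r *
      ∑ n ∈ (Sh g q r).filter (fun n => T1o g q r n), Kd g δ q r n ≤
      Real.exp 353 * 65536 * (if L q r then gm g (cc g r) q r * w (pa q r) else 0) := by
    intro q hq r hr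
    by_cases hLqr : L q r
    · rw [if_pos hLqr]
      obtain ⟨n, hn1, hn2, hn3⟩ := (hL q r).1 hLqr
      obtain ⟨g1, g2, hT'⟩ := hn2.st
      have h4 : ((Sh g q r).filter (fun n => T1o g q r n)) = {n} := by
        refine eq_singleton_iff_unique_mem.2 ⟨mem_filter.2 ⟨hn1, hn2⟩, fun m hm => ?_⟩
        exact Al_unique ((mem_filter.1 hm).2.st.2.2).1.1 hT'.1.1
      rw [h4, sum_singleton, hw, hpa]
      exact term_gm hρ hJ hX hV hδ (hS hq) (hS hr) hn1 hT'.1 hT'.2.1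
    · rw [if_neg hLqr]
      have h4 : ∑ n ∈ (Sh g q r).filter (fun n => T1o g q r n), Kd g δ q r n = 0 := by
        refine sum_eq_zero fun n hn => ?_
        by_contra h5
        exact hLqr ((hL q r).2 ⟨n, (mem_filter.1 hn).1, (mem_filter.1 hn).2, h5⟩)
      rw [h4, mul_zero, mul_zero]
  have hnn : ∀ q r, 0 ≤ Real.exp 353 * 65536 *
      (if L q r then gm g (cc g r) q r * w (pa q r) else 0) := by
    intro q r
    refine mul_nonneg (by positivity) ?_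
    split_ifs
    · exact mul_nonneg (gm_nonneg _ _ _) (hw0 _)
    · exact le_rfl
  have htot : ∑ q ∈ S, ∑ r ∈ S, (if L q r then gm g (cc g r) q r * w (pa q r) else 0) ≤
      2 * (Zc (zs g) * Real.exp (1 / 2)) ^ 2 * ∑ q ∈ S, f g q := by
    have hA : ∀ q ∈ S, ∀ r ∈ S, pa q r ∈ (S ×ˢ S).image (fun x => pa x.1 x.2) :=
      fun q hq r hr => mem_image.2 ⟨(q, r), mem_product.2 ⟨hq, hr⟩, rfl⟩
    obtain ⟨Q1, hQ1⟩ : ∃ Q1 : ℕ × ℕ → ℕ → Prop, ∀ x q, Q1 x q ↔ ∃ r ∈ S, Lx x q r :=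
      ⟨_, fun _ _ => Iff.rfl⟩
    obtain ⟨Q2, hQ2⟩ : ∃ Q2 : ℕ × ℕ → ℕ → Prop, ∀ x r, Q2 x r ↔ ∃ q ∈ S, Lx x q r :=
      ⟨_, fun _ _ => Iff.rfl⟩
    refine pat_total pa (fun q r => gm g (cc g r) q r) hw0 (f_nonneg g) hLx
      (Q1 := Q1) (Q2 := Q2) hA ?_ ?_ ?_
    · intro x
      have h0 := form_pat hV hz (fun q hq => (hSV q hq).1) (S := S) (a := x.1) (b := x.2)
        (L := Lx x) (by
          intro q hq r hr h
          obtain ⟨h1, h2⟩ := (hLx x q r).1 h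
          have h3 := (hLd q hq r hr h1).1
          rw [← h2, hpa]
          exact ⟨h3, rfl, rfl⟩)
      refine h0.trans (le_of_eq ?_)
      congr 1
      · refine sum_congr ?_ fun _ _ => rfl
        ext q
        rw [mem_filter, mem_filter, hQ1]
      · refine sum_congr ?_ fun _ _ => rfl
        ext q
        rw [mem_filter, mem_filter, hQ2]
    · intro q hq
      rw [sum_congr rfl fun x _ => hw x]
      refine part_old (hSV q hq).2 _ fun x hx => ?_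
      obtain ⟨r, hr, h0⟩ := (hQ1 x q).1 (mem_filter.1 hx).2
      obtain ⟨h1, h2⟩ := (hLx x q r).1 h0
      obtain ⟨-, h4, h5, h6⟩ := hLd q hq r hr h1
      rw [h2] at h4 h5 h6
      exact ⟨h4, h5, fun p hp hzp h => (h6 p hp hzp h).1⟩
    · intro r hr
      rw [sum_congr rfl fun x _ => hw x]
      refine part_old (hSV r hr).2 _ fun x hx => ?_
      obtain ⟨q, hq, h0⟩ := (hQ2 x r).1 (mem_filter.1 hx).2
      obtain ⟨h1, h2⟩ := (hLx x q r).1 h0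
      obtain ⟨-, h4, h5, h6⟩ := hLd q hq r hr h1
      rw [h2] at h4 h5 h6
      exact ⟨h4, h5, fun p hp hzp h => (h6 p hp hzp h).2⟩
  have hstart : EnS g S δ (T1o g) ≤ ∑ q ∈ S, ∑ r ∈ S, Real.exp 353 * 65536 *
      (if L q r then gm g (cc g r) q r * w (pa q r) else 0) := by
    unfold EnS
    refine sum_le_sum fun q hq => ?_
    refine (sum_le_sum fun r hr => hpair q hq r (mem_of_mem_erase hr)).trans ?_
    exact sum_le_sum_of_subset_of_nonneg (erase_subset q S) fun r _ _ => hnn q r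
  refine hstart.trans ?_
  have e : ∑ q ∈ S, ∑ r ∈ S, Real.exp 353 * 65536 *
      (if L q r then gm g (cc g r) q r * w (pa q r) else 0) = Real.exp 353 * 65536 *
      ∑ q ∈ S, ∑ r ∈ S, (if L q r then gm g (cc g r) q r * w (pa q r) else 0) := by
    rw [mul_sum]
    exact sum_congr rfl fun q _ => by rw [mul_sum]
  rw [e]
  refine (mul_le_mul_of_nonneg_left htot (by positivity)).trans (le_of_eq ?_)
  ring

open Classical in
/-- **Class O.** -/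
theorem EnS_TAo (hρ : Real.exp 1 ≤ g.K.P.ρ0 ^ (-g.K.P.c0)) (hJ : JsOK g.K g.Js)
    (hX : g.Js ≤ g.X) (hV : g.V ⊆ Icc 1 (N g)) (hK0 : K0c g ≤ zs g) {δ : ℕ → ℕ → ℝ}
    (hδ : Om δ) (hδ' : DFin g δ) {S : Finset ℕ} (hS : S ⊆ V1 g) :
    EnS g S δ (fun q r n => ∃ i ∈ Icc 1 (nst g), TAo g i q r n) ≤
      2 * (Real.exp 353 * 131072 * (Zc (zs g) * Real.exp (1 / 2)) ^ 2) * ∑ q ∈ S, f g q := by
  have hSV : ∀ q ∈ S, q ∈ g.V := fun q hq => (mem_filter.1 (mem_filter.1 (hS hq)).1).1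
  have h1 := EnS_T1o hρ hJ hX hV hK0 hδ hδ' hS
  have h2 : EnS g S δ (fun q r n => ∃ i ∈ Icc 1 (nst g), TAo g i q r n) ≤
      EnS g S δ (fun q r n => T1o g q r n ∨ T1o g r q (-n)) := by
    refine EnS_mono g hδ fun q hq r hr n hn h => ?_
    obtain ⟨i, hi, hT⟩ := h
    rcases le_total (cc g q) (cc g r) with h | h
    · exact Or.inl ⟨i, hi, hT, h⟩
    · exact Or.inr ⟨i, hi, hT.swap hV (zs_le_z hJ hX i) (hSV q hq)
        (hSV r (mem_of_mem_erase hr)), h⟩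
  have h3 := EnS_or g hδ S (T1o g) (fun q r n => T1o g r q (-n))
  have h4 := EnS_swap (g := g) S δ (T1o g)
  have h5 : EnS g S δ (fun q r n => T1o g q r n ∨ T1o g r q (-n)) ≤
      EnS g S δ (T1o g) + EnS g S δ (fun q r n => T1o g r q (-n)) := h3
  rw [← h4] at h5
  linarith

end Vale.P028.SK
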